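import Vale.Agent.P113.R2.H540.Sol
import Vale.Agent.P113.R2.H961.FlowIface
import Vale.Agent.P113.R2.H796.Main
import Vale.Agent.P113.R2.H928.Compiler

namespace Vale.Agent.P113.R2.H540

open MeasureTheory Set Vale.Agent.P113

theorem rho_nonneg (s : ℝ) : 0 ≤ rho s := by
  unfold rho
  split_ifs
  · exact (Real.exp_pos _).le
  · exact le_rfl

theorem deriv_rho_eq_zero (s : ℝ) (hs : 1 ≤ |s|) : deriv rho s = 0 := by
  refine IsLocalMin.deriv_eq_zero (Filter.Eventually.of_forall fun y => ?_)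
  rw [rho_eq_zero hs]
  exact rho_nonneg y

/-- The integral of the loader profile. -/
noncomputable def Th (t : ℝ) : ℝ := sigma (8 * t - 1) / kappa

theorem Th_hasDerivAt (t : ℝ) : HasDerivAt Th (th0 t) t := by
  have h1 : HasDerivAt (fun s : ℝ => 8 * s - 1) 8 t := by
    simpa using ((hasDerivAt_id t).const_mul 8).sub_const 1
  have h3 := ((sigma_hasDerivAt (8 * t - 1)).comp t h1).div_const kappa
  refine h3.congr_deriv ?_
  unfold th0
  ring

theorem Th_zero : Th 0 = 0 := by
  unfold Th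
  rw [sigma_of_le (by norm_num)]
  simp

theorem Th_one {t : ℝ} (h : 1 / 4 ≤ t) : Th t = 1 := by
  unfold Th
  rw [sigma_of_ge (by linarith), div_self kappa_pos.ne']

theorem main_of (hflow : FlowStatement)
    (huniq : ∀ (u : ℝ → (Fin 3 → ℝ) → (Fin 3 → ℝ)),
      ContDiff ℝ (⊤ : ℕ∞) (fun z : ℝ × (Fin 3 → ℝ) => u z.1 z.2) → ∀ a X Y,
      IsTrajectory u a X → IsTrajectory u a Y → ∀ t ∈ Ici (0 : ℝ), Y t = X t) :
    MainStatement := by
  obtain ⟨N, P, x₀, y₀, K, B, hG, hB, H⟩ := H796.discrete_main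
  obtain ⟨U, hU, hz, hdiv, hX⟩ := hflow P hG
  have hz' : ∀ i t x, 0 ≤ t → t ≤ 1 / 4 → U i t x = 0 := fun i t x h0 h1 =>
    hz i t x 0 (by simpa using h0) (by simpa using h1)
  obtain ⟨G, hG', hsol⟩ := exists_solution U hU hz' hdiv
  choose L hL hLe using hG'
  have hd : 0 < (64 * K).den := (64 * K).den_pos
  have hB0 : 0 < B := by omega
  refine ⟨![x₀, y₀, 0], ![0, 0, 3 / 8], ![1, 1, 5 / 8],
    H928.compiler L (64 * K).num (64 * K).den B, ?_, ?_, ?_⟩
  · intro i
    fin_cases i <;> norm_num [Matrix.vecHead, Matrix.vecTail]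
  · exact H928.compiler_isForceCompiler hL _ hd hB0 deriv_rho_eq_zero
  intro ν hν M w
  obtain ⟨x, y, hx0, hy0, horb, hst⟩ := H M w
  obtain ⟨XF, hXF0, hXF', hXFb, hXFs⟩ := hX x y horb
  set r : ℝ := (K : ℝ) / (B : ℝ) ^ (Encodable.encode (M, w)) with hr
  have hf : ∀ t x i, field ν (H928.compiler L (64 * K).num (64 * K).den B M w) t x i =
      G i ν t x + if i = 1 then r * (64 / kappa * deriv rho (8 * t - 1)) else 0 := by
    intro t x i
    rw [H928.field_compiler _ hd hB0, hLe]
    congr 1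
    split_ifs
    · have h1 : (((64 * K).num : ℝ)) / (64 * K).den = 64 * K := by
        have h2 := Rat.num_div_den (64 * K)
        have h3 : (((64 * K).num : ℚ) / ((64 * K).den : ℚ) : ℝ) = ((64 * K : ℚ) : ℝ) := by
          exact_mod_cast congrArg (fun q : ℚ => (q : ℝ)) h2
        push_cast at h3
        exact h3
      rw [← div_div, h1, hr]
      ring
    · rfl
  have hs := hsol ν hν r _ hf
  refine ⟨_, _, hs, ?_⟩
  let X : ℝ → Fin 3 → ℝ := fun t i => XF t i + if i = 1 then r * (Th t - 1) else 0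
  have hXF : ∀ t, 1 / 4 ≤ t → X t = XF t := by
    intro t ht
    funext i
    simp [X, Th_one ht]
  have hXt : IsTrajectory (fun t x i => U i t x + if i = 1 then r * th0 t else 0)
      (fun i => ((![x₀, y₀, 0] : Fin 3 → ℚ) i : ℝ)) X := by
    refine ⟨?_, ?_⟩
    · funext i
      have h0 := hXF0 0 (by norm_num)
      have hy0' : ((y 0 : ℚ) : ℝ) = y₀ + r := by
        rw [hy0, hr]; push_cast; ring
      simp only [X, h0, Th_zero, hx0, hy0']
      fin_cases i
      · simp
      · simp
      · simp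
    · intro t ht
      refine HasDerivAt.hasDerivWithinAt (hasDerivAt_pi.2 fun i => ?_)
      have h1 : U i t (X t) = U i t (XF t) := by
        rcases le_total t (1 / 4) with h | h
        · rw [hz' i t _ ht h, hz' i t _ ht h]
        · rw [hXF t h]
      simp only [X]
      rw [show U i t (fun i => XF t i + if i = 1 then r * (Th t - 1) else 0) = U i t (XF t) from h1]
      refine ((hasDerivAt_pi.1 (hXF' t ht)) i).add ?_
      split_ifs
      · exact ((Th_hasDerivAt t).sub_const 1).const_mul r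
      · exact hasDerivAt_const _ _
  refine ⟨X, hXt, fun Y hY => huniq _ hs.smooth_u _ _ _ hXt hY, ?_⟩
  rw [← hst, ← hXFs]
  constructor
  · rintro ⟨t, ht, hb⟩
    refine ⟨t, ht, ?_⟩
    obtain ⟨z, hz1, hz2⟩ := hb
    have h2 := congrFun hz2 2
    simp only [proj] at h2
    have hX2 : X t 2 = XF t 2 := by simp [X]
    rw [hX2] at h2
    have hz3 := hz1 2
    have h3 := (hXFb t).2.2.2.2
    simp only [Matrix.cons_val] at hz3
    push_cast at hz3
    have h4 : z 2 = XF t 2 := by
      refine (AddCircle.coe_eq_coe_iff_of_mem_Ico (p := (1 : ℝ)) (a := 0) ?_ ?_).1 h2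
      · constructor <;> linarith [hz3.1, hz3.2]
      · constructor <;> linarith [h3.1, h3.2]
    rw [← h4]
    exact hz3.1
  · rintro ⟨t, ht, h3⟩
    refine ⟨t, ht, X t, ?_, rfl⟩
    have ht4 : 1 / 4 ≤ t := by
      by_contra h
      push Not at h
      rw [hXF0 t h.le] at h3
      simp at h3
      norm_num at h3
    rw [hXF t ht4]
    obtain ⟨b1, b2, b3, b4, b5, b6⟩ := hXFb t
    intro i
    fin_cases i
    · simpa using ⟨b1, b2⟩
    · simpa using ⟨b3, b4⟩
    · simp only [Fin.reduceFinMk, Matrix.cons_val]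
      push_cast
      exact ⟨h3, b6⟩

end Vale.Agent.P113.R2.H540
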