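import Vale.Agent.P113.R2.H540.Asm
import Vale.Agent.P113.R2.H928.TrajUnique

namespace Vale.Agent.P113.R2.H540

open Vale.Agent.P113

theorem main (hflow : FlowStatement) : MainStatement :=
  main_of hflow fun _ hu _ _ _ hX hY => H928.trajectory_unique hu hX hY

end Vale.Agent.P113.R2.H540
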