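import Vale.Agent.P113.R2.H813.AdmCalc
import Vale.Agent.P113.R2.H813.Main

namespace Vale.Agent.P113.R2.H540

open MeasureTheory Set Vale.Agent.P113

/-- The time profile of the loader, of integral one, supported in `[0, 1/4]`. -/
noncomputable def th0 (t : ℝ) : ℝ := 8 / kappa * rho (8 * t - 1)

theorem th0_contDiff : ContDiff ℝ (⊤ : ℕ∞) th0 :=
  contDiff_const.mul (rho_contDiff.comp ((contDiff_const.mul contDiff_id).sub contDiff_const))

theorem th0_hasDerivAt (t : ℝ) : HasDerivAt th0 (64 / kappa * deriv rho (8 * t - 1)) t := by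
  have h1 : HasDerivAt (fun s : ℝ => 8 * s - 1) 8 t := by
    simpa using ((hasDerivAt_id t).const_mul 8).sub_const 1
  have h2 : HasDerivAt rho (deriv rho (8 * t - 1)) (8 * t - 1) :=
    (rho_contDiff.differentiable (by simp) _).hasDerivAt
  have h3 := (h2.comp t h1).const_mul (8 / kappa)
  refine h3.congr_deriv ?_
  ring

theorem th0_eq_zero {t : ℝ} (h : t ≤ 0 ∨ 1 / 4 ≤ t) : th0 t = 0 := by
  unfold th0
  rw [rho_eq_zero, mul_zero]
  rcases h with h | h
  · rw [abs_of_nonpos (by linarith)]; linarith
  · rw [abs_of_nonneg (by linarith)]; linarith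

theorem HasPD.zero_of {i : Fin 3} {g g' : (Fin 3 → ℝ) → ℝ} (h : HasPD i g g') (h0 : ∀ x, g x = 0)
    (x : Fin 3 → ℝ) : g' x = 0 := by
  have h1 := h x
  have h2 : (fun s => g (Function.update x i s)) = fun _ => 0 := by
    funext s; exact h0 _
  rw [h2] at h1
  exact h1.unique (hasDerivAt_const _ _)

theorem hasPD_add_const {i : Fin 3} {g g' : (Fin 3 → ℝ) → ℝ} (h : HasPD i g g') (c : ℝ) :
    HasPD i (fun x => g x + c) g' := fun x => (h x).add_const c

theorem Adm.sum {ι : Type*} (s : Finset ι) {F : ι → ℝ → ℝ → (Fin 3 → ℝ) → ℝ}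
    (h : ∀ i ∈ s, Adm (F i)) : Adm fun ν t x => ∑ i ∈ s, F i ν t x := by
  classical
  induction s using Finset.induction_on with
  | empty => simpa using Adm.zero
  | insert a s ha ih =>
    have h1 := Adm.add (h a (Finset.mem_insert_self _ _))
      (ih fun i hi => h i (Finset.mem_insert_of_mem hi))
    simpa [Finset.sum_insert ha] using h1

theorem Adm.neg {F : ℝ → ℝ → (Fin 3 → ℝ) → ℝ} (h : Adm F) : Adm fun ν t x => -F ν t x := by
  have h1 := Adm.mul (Adm.const (-1)) h
  simpa using h1

theorem periodic_contin {F : ℝ → ℝ → (Fin 3 → ℝ) → ℝ} (hF : Adm F) (ν : ℝ) :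
    Continuous fun z : ℝ × (Fin 3 → ℝ) => F ν z.1 z.2 := (Adm.contDiff hF ν).continuous

theorem exists_solution (U : Fin 3 → ℝ → (Fin 3 → ℝ) → ℝ) (hU : ∀ i, Adm fun _ => U i)
    (hz : ∀ i t x, 0 ≤ t → t ≤ 1 / 4 → U i t x = 0)
    (hdiv : ∀ D : Fin 3 → ℝ → (Fin 3 → ℝ) → ℝ, (∀ i t, HasPD i (U i t) (D i t)) →
        ∀ t x, ∑ i, D i t x = 0) :
    ∃ G : Fin 3 → ℝ → ℝ → (Fin 3 → ℝ) → ℝ, (∀ i, Adm (G i)) ∧
      ∀ ν : ℝ, 0 < ν → ∀ (r : ℝ) (f : ℝ → (Fin 3 → ℝ) → (Fin 3 → ℝ)),
        (∀ t x i, f t x i = G i ν t x +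
          if i = 1 then r * (64 / kappa * deriv rho (8 * t - 1)) else 0) →
        IsUniqueSmoothSolution ν f (fun t x i => U i t x + if i = 1 then r * th0 t else 0)
          (fun _ _ => 0) := by
  choose Ut hUt hUt' using fun i => (hU i).dt
  choose D hD hD' using fun j i => (hU i).dx j
  choose DD hDD hDD' using fun j k i => (hD j i).dx k
  refine ⟨fun i ν t x => (Ut i ν t x + ∑ j, U j t x * D j i ν t x) + -(ν * ∑ j, DD j j i ν t x),
    fun i => ?_, ?_⟩
  · refine Adm.add (Adm.add (hUt i) (Adm.sum _ fun j _ => Adm.mul (hU j) (hD j i))) (Adm.neg ?_)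
    exact Adm.mul Adm.nu (Adm.sum _ fun j _ => hDD j j i)
  intro ν hν r f hf
  have key : ∀ t x i, r * th0 t * D 1 i ν t x = 0 := by
    intro t x i
    by_cases h : 0 ≤ t ∧ t ≤ 1 / 4
    · rw [HasPD.zero_of (hD' 1 i ν t) (fun x => hz i t x h.1 h.2) x, mul_zero]
    · rw [th0_eq_zero, mul_zero, zero_mul]
      by_contra h'
      push Not at h'
      exact h ⟨h'.1.le, h'.2.le⟩
  have hcl : ∀ T, 0 < T → IsClassical ν T f
      (fun t x i => U i t x + if i = 1 then r * th0 t else 0) (fun _ _ => 0) := by
    intro T hT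
    refine ⟨fun t x i => Ut i ν t x + if i = 1 then r * (64 / kappa * deriv rho (8 * t - 1)) else 0,
      fun j t x i => D j i ν t x, fun j k t x i => DD j k i ν t x, fun _ _ _ => 0,
      ⟨?_, ?_, ?_, ?_, ?_, ?_, ?_, ?_⟩, ⟨?_, ?_, ?_, ?_, ?_⟩, ?_, ?_, ?_⟩
    · refine Continuous.continuousOn (continuous_pi fun i => ?_)
      refine (periodic_contin (hU i) ν).add ?_
      split_ifs
      · exact continuous_const.mul (th0_contDiff.continuous.comp continuous_fst)
      · exact continuous_const
    · refine Continuous.continuousOn (continuous_pi fun i => ?_)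
      refine (periodic_contin (hUt i) ν).add ?_
      split_ifs
      · refine continuous_const.mul (continuous_const.mul ?_)
        refine (rho_contDiff.continuous_deriv (by simp)).comp ?_
        fun_prop
      · exact continuous_const
    · intro j
      exact Continuous.continuousOn (continuous_pi fun i => periodic_contin (hD j i) ν)
    · intro j k
      exact Continuous.continuousOn (continuous_pi fun i => periodic_contin (hDD j k i) ν)
    · intro t _ x k
      funext i
      have := (hU i).periodic3 ν t x k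
      simp only at this ⊢
      rw [this]
    · intro t _ x
      refine HasDerivAt.hasDerivWithinAt (hasDerivAt_pi.2 fun i => ?_)
      refine (hUt' i ν t x).add ?_
      split_ifs
      · exact (th0_hasDerivAt t).const_mul r
      · exact hasDerivAt_const _ _
    · intro t _ j x
      refine hasDerivAt_pi.2 fun i => ?_
      exact (hD' j i ν t x).add_const _
    · intro t _ j k x
      exact hasDerivAt_pi.2 fun i => hDD' j k i ν t x
    · exact continuousOn_const
    · intro i; exact continuousOn_const
    · intro t _ x k; rfl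
    · intro t _ i x; exact hasDerivAt_const _ _
    · intro t _
      simp
    · intro t _ x i
      simp only [hf, neg_zero, zero_add]
      have h1 : ∑ j, (U j t x + if j = 1 then r * th0 t else 0) * D j i ν t x =
          ∑ j, U j t x * D j i ν t x := by
        have h2 := key t x i
        simp only [Fin.sum_univ_three, add_mul]
        simp [h2]
      rw [h1]
      ring
    · intro t _ x
      exact hdiv (fun i => D i i ν) (fun i t => hD' i i ν t) t x
    · intro x
      funext i
      simp only [Pi.zero_apply]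
      rw [hz i 0 x le_rfl (by norm_num), th0_eq_zero (Or.inl le_rfl)]
      simp
  refine ⟨?_, contDiff_const, hcl, ?_⟩
  · refine contDiff_pi.2 fun i => ?_
    refine ((hU i).contDiff ν).add ?_
    split_ifs
    · exact contDiff_const.mul (th0_contDiff.comp contDiff_fst)
    · exact contDiff_const
  · intro T hT v q hv
    exact H813.classical_unique hν.le hT (hcl T hT) hv

end Vale.Agent.P113.R2.H540
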